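import Vale.Agent.P092TL.Fc
import Vale.Agent.P092WN.Asy

/-!
P092 (helper6), block Tail: the strong tails of the ambient algebra give the strong tails of the
concrete two-sided system.
-/

set_option linter.all false

open scoped InnerProductSpace ENNReal
open MeasureTheory Filter Topology ContinuousLinearMap

namespace Vale.Agent.P092TL

open Vale.Agent.P092.RC (Cm)
open Vale.Agent.P092CP Vale.Agent.P092ST Vale.Agent.P092FA Vale.Agent.P092WN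

variable {G G' K 𝒦 H₀ : Type} [Group G] [TopologicalSpace G] [IsTopologicalGroup G]
  [LocallyCompactSpace G] [SecondCountableTopology G] [T2Space G] [MeasurableSpace G] [BorelSpace G]
  [Group G'] [TopologicalSpace G'] [IsTopologicalGroup G'] [LocallyCompactSpace G']
  [SecondCountableTopology G'] [T2Space G'] [MeasurableSpace G'] [BorelSpace G']
  [NormedAddCommGroup K] [InnerProductSpace ℂ K] [CompleteSpace K] {μ : Measure G}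
  [μ.IsHaarMeasure] {μ' : Measure G'} [μ'.IsHaarMeasure] {W : Set (K →L[ℂ] K)}
  [NormedAddCommGroup 𝒦] [InnerProductSpace ℂ 𝒦] [CompleteSpace 𝒦]
  [NormedAddCommGroup H₀] [InnerProductSpace ℂ H₀]
  {C : Cpl μ μ' W} {A : Amb G C.t.Γ 𝒦} {Φ : Fr C A} {ω x y : 𝒦 →L[ℂ] 𝒦} {γ : C.t.Γ} {g h s : G}
  {S : Sys G C.t.Γ (HH A) H₀} {J ε : ℝ}

/-- `S` has the data of the concrete system (all fields are `rfl` for it) -/
structure Is (Φ : Fr C A) (ω : 𝒦 →L[ℂ] 𝒦) (S : Sys G C.t.Γ (HH A) H₀) : Prop where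
  m : ∀ f, S.m f = lm A (Mf A f)
  ζ : ∀ g, S.ζ g = vv A (tw A ω g)
  L : ∀ h, S.L h = lm A (tw A ω h)
  R : ∀ g s, S.R g s = Φ.rg g s (tw A ω s)
  Lf : ∀ h a, S.Lf h a ↔ Fr.Lf h a
  Rt : ∀ b, S.Rt b ↔ Φ.Rt b
  Am : ∀ v c, S.Am v c ↔ Fr.Am v c

theorem deg_tw (hω : A.Deg 1 ω) (g : G) : A.Deg g (tw A ω g) :=
  (hω.one_mul (Amb.deg_V g)).mul1 hω.star1

theorem hs_tw (hω : A.Deg 1 ω) (g : G) : A.HS (tw A ω g) :=
  (Amb.hs_col (Amb.col_p ω g)).mul_right (hω.one_mul (Amb.deg_V g)) hω.star1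

theorem hs_le (hε : 0 ≤ ε) (e : A.H2 x ≤ ENNReal.ofReal (ε ^ 2)) : A.HS x ∧ A.hs x ≤ ε := by
  have h1 := Amb.hs_of_H2 (ne_top_of_le_ne_top ENNReal.ofReal_ne_top e)
  rw [h1.H2_eq, ENNReal.ofReal_le_ofReal_iff (sq_nonneg _)] at e
  exact ⟨h1, le_of_sq_le_sq e hε⟩

variable (Φ) in
theorem mem_L (hx : A.Deg h x) {d : 𝒦 →L[ℂ] 𝒦} (hd : d ∈ D A) : x * d * Φ.U h⁻¹ ∈ D A :=
  ⟨cm_U Φ (hx.mul1 (Amb.deg_one_iff.2 hd.1)), hs_U Φ (hd.2.mul x) _⟩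

variable (Φ) in
theorem cm_R (g : G) (hy : A.Deg s y) : Cm A.𝓦 (Φ.U g * y * Φ.U (g * s)⁻¹) :=
  cm_U Φ ((Φ.U_deg g).mul hy)

variable (Φ) in
theorem norm_R (g s : G) (hy : ‖y‖ ≤ 1) : ‖Φ.U g * y * Φ.U (g * s)⁻¹‖ ≤ 1 :=
  Amb.norm_mul_le1 (Amb.norm_mul_le1 (norm_U Φ g) hy) (norm_U Φ _)

theorem rg_vv (g : G) (hy : A.Deg s y) {d : 𝒦 →L[ℂ] 𝒦} (hd : d ∈ D A) :
    Φ.rg g s y (vv A d) = vv A (d * (Φ.U g * y * Φ.U (g * s)⁻¹)) := bim.R_v (cm_R Φ g hy) hd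

namespace Is

variable (I : Is Φ ω S)
include I

theorem ct_lm (hx : A.Deg h x) (h1 : ‖x‖ ≤ 1) : S.Ct (lm A x) :=
  ⟨norm_lm h1, fun v c hv => by
    obtain ⟨d, hd, rfl, hc⟩ := (I.Am _ _).1 hv
    refine (I.Am _ _).2 ⟨_, mem_L Φ hx hd, by rw [lm_vv x hd, vv_U], le_trans ?_ hc⟩
    exact (norm_mul_le _ _).trans ((mul_le_of_le_one_right (norm_nonneg _) (norm_U Φ _)).trans
      ((norm_mul_le _ _).trans (mul_le_of_le_one_left (norm_nonneg _) h1)))⟩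

theorem ct_rg (g : G) (hy : A.Deg s y) (h1 : ‖y‖ ≤ 1) : S.Ct (Φ.rg g s y) :=
  ⟨fun v => (bim.norm_R (cm_R Φ g hy) v).trans
      (mul_le_of_le_one_left (norm_nonneg _) (norm_R Φ g s h1)), fun v c hv => by
    obtain ⟨d, hd, rfl, hc⟩ := (I.Am _ _).1 hv
    exact (I.Am _ _).2 ⟨_, bim.mulD' hd (cm_R Φ g hy), rg_vv g hy hd, ((norm_mul_le _ _).trans
      (mul_le_of_le_one_right (norm_nonneg _) (norm_R Φ g s h1))).trans hc⟩⟩

theorem rt_rg (hy : A.Deg s y) : S.Rt fun g => Φ.rg g s y :=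
  (I.Rt _).2 ⟨_, cm_U Φ hy, fun g => by simp only [Fr.rg, mul_inv_rev, map_mul, mul_assoc]⟩

theorem hom_lm (hx : A.Deg h x) (h1 : Hom A γ x) {f : C.t.Γ → ℝ} (hf : P092WN.Bd f) (v : HH A) :
    S.m f (lm A x v) = lm A x (S.m (fun δ => f (γ * δ)) v) := by
  have hf' : P092WN.Bd fun δ => f (γ * δ) := hf.imp fun c hc δ => hc _
  refine ap_eq (x := S.m f * lm A x) (y := lm A x * S.m _) (ext_hom Φ fun δ d hd h2 => ?_) v
  have h3 := (h1.mul h2).mul (hom_U Φ h⁻¹)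
  rw [mul_one] at h3
  rw [mul_ap, mul_ap, I.m, I.m, Mf_vv Φ hf' hd h2, map_smul, lm_vv x hd, ← vv_U Φ _ h⁻¹,
    Mf_vv Φ hf (mem_L Φ hx hd) h3]

theorem hom_rg (g : G) (hy : A.Deg s y) (h1 : Hom A γ y) {f : C.t.Γ → ℝ} (hf : P092WN.Bd f)
    (v : HH A) : S.m f (Φ.rg g s y v) = Φ.rg g s y (S.m (fun δ => f (δ * γ)) v) := by
  have hf' : P092WN.Bd fun δ => f (δ * γ) := hf.imp fun c hc δ => hc _
  refine ap_eq (x := S.m f * Φ.rg g s y) (y := Φ.rg g s y * S.m _)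
    (ext_hom Φ fun δ d hd h2 => ?_) v
  have h3 := h2.mul (((hom_U Φ g).mul h1).mul (hom_U Φ (g * s)⁻¹))
  rw [mul_one, one_mul] at h3
  rw [mul_ap, mul_ap, I.m, I.m, Mf_vv Φ hf' hd h2, map_smul, rg_vv g hy hd,
    Mf_vv Φ hf (bim.mulD' hd (cm_R Φ g hy)) h3]

variable (hω : A.Deg 1 ω) {F : Finset C.t.Γ} (hF : ∀ s, s ∈ F ↔ A.len s ≤ J) (hy : A.Deg h y)
  (hb : A.Band J y) (h1 : ‖y‖ ≤ 1) (hε : 0 ≤ ε) (he : A.H2 (y - tw A ω h) ≤ ENNReal.ofReal (ε ^ 2))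
include hω hF hy hb h1 hε he

theorem la : Nonempty (S.LA A.len h J ε) := by
  obtain ⟨h2, h3⟩ := hs_le hε he
  have e : ∑ s ∈ F, lm A (fc A s y) = lm A y := bim.ext fun d hd => by
    rw [ContinuousLinearMap.sum_apply, lm_vv _ hd]
    simp only [lm_vv _ hd]
    rw [← vv_sum F fun s => hd.2.mul _, ← Finset.sum_mul, sum_fc Φ hb fun s => (hF s).2]
  refine ⟨⟨F, fun s => lm A (fc A s y), fun s => (hF s).1,
    fun s _ => (I.Lf _ _).2 ⟨_, deg_fc Φ s hy, rfl⟩,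
    fun s _ => I.ct_lm (deg_fc Φ s hy) ((norm_fc Φ s y).trans h1),
    fun s _ f hf => I.hom_lm (deg_fc Φ s hy) (hom_fc Φ s y) hf, e ▸ I.ct_lm hy h1,
    fun v c hv => ?_⟩⟩
  obtain ⟨d, hd, rfl, hc⟩ := (I.Am _ _).1 hv
  rw [e, I.L, lm_vv _ hd, lm_vv _ hd, ← vv_sub (hd.2.mul _) (hd.2.mul _), ← sub_mul, mul_comm]
  exact (norm_vv _).trans ((h2.hs_mul_right (hy.sub (deg_tw hω h)) (Amb.deg_one_iff.2 hd.1)).trans
    (mul_le_mul hc h3 (Amb.hs_nonneg _) ((norm_nonneg _).trans hc)))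

theorem ra : Nonempty (S.RA A.len h J ε) := by
  obtain ⟨h2, h3⟩ := hs_le hε he
  have e : ∀ g, ∑ s ∈ F, Φ.rg g h (fc A s y) = Φ.rg g h y := fun g => bim.ext fun d hd => by
    rw [ContinuousLinearMap.sum_apply, rg_vv g hy hd]
    simp only [rg_vv g (deg_fc Φ _ hy) hd]
    rw [← vv_sum F fun s => (bim.mulD' hd (cm_R Φ g (deg_fc Φ s hy))).2, ← Finset.mul_sum,
      ← Finset.sum_mul, ← Finset.mul_sum, sum_fc Φ hb fun s => (hF s).2]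
  refine ⟨⟨F, fun s g => Φ.rg g h (fc A s y), fun s => (hF s).1,
    fun s _ => I.rt_rg (deg_fc Φ s hy),
    fun s _ g => I.ct_rg g (deg_fc Φ s hy) ((norm_fc Φ s y).trans h1),
    fun s _ g f hf => I.hom_rg g (deg_fc Φ s hy) (hom_fc Φ s y) hf,
    fun g => e g ▸ I.ct_rg g hy h1, fun g v c hv => ?_⟩⟩
  obtain ⟨d, hd, rfl, hc⟩ := (I.Am _ _).1 hv
  rw [e, I.R, rg_vv g hy hd, rg_vv g (deg_tw hω h) hd, ← vv_sub (bim.mulD' hd (cm_R Φ g hy)).2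
    (bim.mulD' hd (cm_R Φ g (deg_tw hω h))).2, ← mul_sub, ← sub_mul, ← mul_sub, ← mul_assoc, vv_U,
    mul_comm]
  exact (norm_vv _).trans (((h2.mul _).hs_mul d).trans (mul_le_mul hc
    ((h2.hs_mul1 (norm_U Φ g)).trans h3) (Amb.hs_nonneg _) ((norm_nonneg _).trans hc)))

theorem va (h0 : h = 1) : Nonempty (S.VA A.len J ε) := by
  subst h0
  obtain ⟨h2, h3⟩ := hs_le hε he
  have h4 : y ∈ D A := ⟨Amb.deg_one_iff.1 hy, by simpa using h2.add (hs_tw hω 1)⟩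
  refine ⟨⟨F, fun s => vv A (fc A s y), fun s => (hF s).1,
    fun s _ => (I.Am _ _).2 ⟨_, fc_mem Φ s h4, rfl, (norm_fc Φ s y).trans h1⟩,
    fun s _ f hf => by rw [I.m, Mf_vv Φ hf (fc_mem Φ s h4) (hom_fc Φ s y)], ?_⟩⟩
  rw [← vv_sum F fun s => (fc_mem Φ s h4).2, sum_fc Φ hb fun s => (hF s).2, I.ζ,
    ← vv_sub h4.2 (hs_tw hω 1)]
  exact (norm_vv _).trans h3

end Is

theorem sc_le {c : ℝ} (hc : 0 < c) :
    ∀ᶠ J : ℝ in atTop, sc (1 / 4) J ≤ Real.exp (c * √(Real.log J)) := by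
  filter_upwards [((tendsto_rpow_atTop (show (0 : ℝ) < 1 / 4 by norm_num)).comp
    Real.tendsto_log_atTop).eventually_ge_atTop c⁻¹, eventually_ge_atTop 1] with J h1 h2
  have h0 := Real.log_nonneg h2
  have h3 : √(Real.log J) = Real.log J ^ (1 / 4 : ℝ) * Real.log J ^ (1 / 4 : ℝ) := by
    rw [← Real.rpow_add' h0 (by norm_num), Real.sqrt_eq_rpow]; norm_num
  rw [sc, max_eq_left h2, h3, ← mul_assoc]
  refine Real.exp_le_exp.2 (le_mul_of_one_le_left (Real.rpow_nonneg h0 _) ?_)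
  exact (inv_le_iff_one_le_mul₀' hc).1 h1

/-- balls are finite if their finite subsets have bounded cardinality -/
theorem fin_of_card {Γ : Type} {len : Γ → ℝ} {c : ℝ} (h : ∀ J, 1 ≤ J → ∀ F : Finset Γ,
    (∀ s ∈ F, len s ≤ J) → (F.card : ℝ) ≤ Real.exp (c * J)) (J : ℝ) : {s | len s ≤ J}.Finite := by
  by_contra e
  obtain ⟨n, hn⟩ := exists_nat_gt (Real.exp (c * max J 1))
  obtain ⟨F, h1, h2⟩ := Set.Infinite.exists_subset_card_eq e n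
  exact hn.not_ge (h2 ▸ h _ (le_max_right _ _) F fun s hs => (h1 hs).trans (le_max_left _ _))

/-- **Tail**, in the gauge `ω`. -/
theorem Is.tail (I : Is Φ ω S) (hω : A.Deg 1 ω) (hf : ∀ J, {s | A.len s ≤ J}.Finite) {c : ℝ}
    (hc : 0 < c) (ht : ∀ Q : Set G, IsCompact Q → ∀ᶠ J : ℝ in atTop, ∀ h ∈ Q, ∃ y, A.Deg h y ∧
      A.Band J y ∧ ‖y‖ ≤ 1 ∧ A.H2 (y - ω * A.V h * star ω) ≤
        ENNReal.ofReal (Real.exp (-Real.exp (c * √(Real.log J))) ^ 2)) :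
    S.Tail A.len (sc (1 / 4)) := by
  have h1 : ∀ Q : Set G, IsCompact Q → ∀ᶠ J : ℝ in atTop, ∀ h ∈ Q, ∃ y, A.Deg h y ∧
      A.Band J y ∧ ‖y‖ ≤ 1 ∧
        A.H2 (y - tw A ω h) ≤ ENNReal.ofReal (Real.exp (-sc (1 / 4) J) ^ 2) := fun Q hQ => by
    filter_upwards [ht Q hQ, sc_le hc] with J a b h hh
    obtain ⟨y, h2, h3, h4, h5⟩ := a h hh
    exact ⟨y, h2, h3, h4, h5.trans (ENNReal.ofReal_le_ofReal (pow_le_pow_left₀ (Real.exp_pos _).le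
      (Real.exp_le_exp.2 (neg_le_neg b)) 2))⟩
  refine ⟨(h1 {1} isCompact_singleton).mono fun J a => ?_, fun Q hQ => (h1 Q hQ).mono
    fun J a h hh => ?_⟩
  · obtain ⟨y, h2, h3, h4, h5⟩ := a 1 rfl
    exact I.va hω (fun s => (hf J).mem_toFinset) h2 h3 h4 (Real.exp_pos _).le h5 rfl
  · obtain ⟨y, h2, h3, h4, h5⟩ := a h hh
    exact ⟨I.la hω (fun s => (hf J).mem_toFinset) h2 h3 h4 (Real.exp_pos _).le h5,
      I.ra hω (fun s => (hf J).mem_toFinset) h2 h3 h4 (Real.exp_pos _).le h5⟩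

/-- **Tail** from `A.Tails`. -/
theorem tail (Φ : Fr C A) (ht : A.Tails) (hf : ∀ J, {s | A.len s ≤ J}.Finite) :
    ∃ ω, A.Deg 1 ω ∧ star ω * ω = A.V 1 ∧ Scale (sc (1 / 4)) ∧
      ∀ S : Sys G C.t.Γ (HH A) H₀, Is Φ ω S → S.Tail A.len (sc (1 / 4)) := by
  obtain ⟨ω, h1, h2, c, hc, h3⟩ := ht
  exact ⟨ω, h1, h2, scale_sc (by norm_num) (by norm_num), fun S I => I.tail h1 hf hc h3⟩

end Vale.Agent.P092TL
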