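import Vale.Agent.P092FA.Defs
import Vale.Agent.P092IN.Slot
import Vale.Agent.P092SY.Bim

/-!
P092 (helper6), block Tail: the grading of the amplified algebra by the lattice.
-/

set_option linter.all false

open scoped InnerProductSpace ENNReal
open MeasureTheory Filter Topology ContinuousLinearMap

namespace Vale.Agent.P092TL

open Vale.Agent.P092.RC (Cm)
open Vale.Agent.P092CP Vale.Agent.P092ST Vale.Agent.P092FA Vale.Agent.P092IN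

section amb

variable {G Γ 𝒦 : Type} [Group G] [TopologicalSpace G] [Group Γ] [NormedAddCommGroup 𝒦]
  [InnerProductSpace ℂ 𝒦] [CompleteSpace 𝒦] {A : Amb G Γ 𝒦} {x y d T : 𝒦 →L[ℂ] 𝒦} {γ δ : Γ}

theorem Pj_sq (X : Set Γ) : A.Pj X * A.Pj X = A.Pj X := by
  have h := congrArg (A.Pj X * ·) (A.Pj_compl X)
  simp only [mul_add, A.Pj_disj X Xᶜ disjoint_compl_right, add_zero, mul_one] at h
  exact h

theorem Pj_ne (h : γ ≠ δ) : A.Pj {γ} * A.Pj {δ} = 0 := A.Pj_disj _ _ (Set.disjoint_singleton.2 h)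

theorem adj_Pj (X : Set Γ) : adjoint (A.Pj X) = A.Pj X := A.Pj_star X

theorem norm_Pj (X : Set Γ) : ‖A.Pj X‖ ≤ 1 := Amb.norm_proj (A.Pj_star X) (Pj_sq X)

variable (A) in
/-- `x` moves the cell `δ` to the cell `γ δ` -/
def Hom (γ : Γ) (x : 𝒦 →L[ℂ] 𝒦) : Prop := ∀ δ, x * A.Pj {δ} = A.Pj {γ * δ} * x

theorem Hom.mul (hx : Hom A γ x) (hy : Hom A δ y) : Hom A (γ * δ) (x * y) := fun ε => by
  rw [mul_assoc, hy, ← mul_assoc, hx, mul_assoc, mul_assoc]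

theorem vec_congr (h : ∀ i, x (A.Ω i) = y (A.Ω i)) : A.vec x = A.vec y := by
  have e : (fun i => x (A.Ω i)) = fun i => y (A.Ω i) := funext h
  by_cases hx : A.HS x
  · have hy : A.HS y := by rwa [Amb.HS, ← e]
    exact lp.ext (funext fun i => by rw [hx.vec_ap, hy.vec_ap, h])
  · have hy : ¬A.HS y := by rwa [Amb.HS, ← e]
    rw [Amb.vec, Amb.vec, dif_neg hx, dif_neg hy]

theorem vv_congr (h : ∀ i, x (A.Ω i) = y (A.Ω i)) : vv A x = vv A y := by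
  rw [vv, pv, pv, vec_congr h]

theorem diag_ap (a : 𝒦 →L[ℂ] 𝒦) (ζ : l2 𝒦) (i : ℕ) : diag a ζ i = a (ζ i) := rfl

theorem diag_vec (hx : A.HS x) (a : 𝒦 →L[ℂ] 𝒦) : diag a (A.vec x) = A.vec (a * x) :=
  lp.ext (funext fun i => by rw [diag_ap, hx.vec_ap, (hx.mul a).vec_ap]; rfl)

theorem bim : Bim {a | Cm A.𝓦 a} (D A) (vv A) := P092SY.bim fun _ => Iff.rfl

theorem coe_vv (hd : d ∈ D A) : (vv A d : l2 𝒦) = A.vec d := coe_pv hd

theorem lm_vv (x : 𝒦 →L[ℂ] 𝒦) (hd : d ∈ D A) : lm A x (vv A d) = vv A (x * d) := by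
  change (HH A).orthogonalProjectionOnto (diag x (vv A d : l2 𝒦)) = _
  rw [coe_vv hd, diag_vec hd.2]; rfl

theorem norm_vv (x : 𝒦 →L[ℂ] 𝒦) : ‖vv A x‖ ≤ A.hs x :=
  (HH A).norm_orthogonalProjectionOnto_apply_le _

theorem vv_sub (hx : A.HS x) (hy : A.HS y) : vv A (x - y) = vv A x - vv A y := by
  rw [vv, pv, hx.vec_sub hy, map_sub]; rfl

theorem vv_smul (hx : A.HS x) (c : ℂ) : vv A (c • x) = c • vv A x := by
  rw [vv, pv, hx.vec_smul, map_smul]; rfl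

theorem vv_sum {ι : Type} (s : Finset ι) {f : ι → 𝒦 →L[ℂ] 𝒦} (h : ∀ i, A.HS (f i)) :
    vv A (∑ i ∈ s, f i) = ∑ i ∈ s, vv A (f i) := by
  rw [vv, pv, Amb.vec_sum s h, map_sum]; rfl

theorem norm_lm (hx : ‖x‖ ≤ 1) (ζ : HH A) : ‖lm A x ζ‖ ≤ ‖ζ‖ :=
  bim.ind (p := fun ζ => ‖lm A x ζ‖ ≤ ‖ζ‖) (isClosed_le (by fun_prop) continuous_norm)
    (fun d hd => by
      rw [lm_vv x hd]
      exact (norm_vv _).trans ((hd.2.hs_mul1 hx).trans_eq (congrArg norm (coe_vv hd)).symm)) ζ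

end amb

variable {G G' K 𝒦 : Type} [Group G] [TopologicalSpace G] [IsTopologicalGroup G]
  [LocallyCompactSpace G] [SecondCountableTopology G] [T2Space G] [MeasurableSpace G] [BorelSpace G]
  [Group G'] [TopologicalSpace G'] [IsTopologicalGroup G'] [LocallyCompactSpace G']
  [SecondCountableTopology G'] [T2Space G'] [MeasurableSpace G'] [BorelSpace G']
  [NormedAddCommGroup K] [InnerProductSpace ℂ K] [CompleteSpace K] {μ : Measure G}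
  [μ.IsHaarMeasure] {μ' : Measure G'} [μ'.IsHaarMeasure] {W : Set (K →L[ℂ] K)}
  [NormedAddCommGroup 𝒦] [InnerProductSpace ℂ 𝒦] [CompleteSpace 𝒦]
  {C : Cpl μ μ' W} {A : Amb G C.t.Γ 𝒦} (Φ : Fr C A) {x y d T T' : 𝒦 →L[ℂ] 𝒦} {γ δ : C.t.Γ}
  {g h : G}

theorem sl : Sl Φ.ι := ⟨Φ.iso, Φ.orth, Φ.tot⟩

theorem Pj_ι (γ : C.t.Γ) (i : ℕ) (ξ : K) : A.Pj {γ} (Φ.ι i ξ) = Φ.ι i (C.t.P (C.t.cell γ) ξ) := by
  rw [Φ.Pj_ι, cells, Set.biUnion_singleton]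

theorem adj_ι_Pj (γ : C.t.Γ) (i : ℕ) (ξ : 𝒦) :
    adjoint (Φ.ι i) (A.Pj {γ} ξ) = C.t.P (C.t.cell γ) (adjoint (Φ.ι i) ξ) := by
  rw [← (sl Φ).adj_ι_up]
  congr 2
  exact (sl Φ).ext fun i ξ => by rw [Pj_ι, (sl Φ).up_ι]

theorem U_Ω (g : G) (i : ℕ) : Φ.U g (A.Ω i) = A.Ω i := by rw [Φ.Ω_eq, Φ.U_ι, C.V_Ω]

theorem hom_U (g : G) : Hom A 1 (Φ.U g) := fun δ => (sl Φ).ext fun i ξ => by
  rw [one_mul, mul_ap, mul_ap, Pj_ι, Φ.U_ι, Φ.U_ι, Pj_ι]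
  exact congrArg _ (ap_eq (C.V_m g (Bd.ind (C.t.meas_cell δ))) ξ)

theorem adj_ι_U (g : G) (i : ℕ) (ξ : 𝒦) :
    adjoint (Φ.ι i) (Φ.U g ξ) = C.V g (adjoint (Φ.ι i) ξ) := by
  rw [← (sl Φ).adj_ι_up]
  congr 2
  exact (sl Φ).ext fun i ξ => by rw [Φ.U_ι, (sl Φ).up_ι]

theorem norm_U (g : G) : ‖Φ.U g‖ ≤ 1 :=
  opNorm_le_bound _ zero_le_one fun ξ => by
    rw [one_mul, ← sq_le_sq₀ (norm_nonneg _) (norm_nonneg _)]
    refine hasSum_le (fun i => ?_) ((sl Φ).hasSum_sq _) ((sl Φ).hasSum_sq ξ)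
    rw [adj_ι_U, C.norm_V]

theorem vv_U (x : 𝒦 →L[ℂ] 𝒦) (g : G) : vv A (x * Φ.U g) = vv A x :=
  vv_congr fun i => by rw [mul_ap, U_Ω]

theorem hs_U (hx : A.HS x) (g : G) : A.HS (x * Φ.U g) := by
  have e : (fun i => (x * Φ.U g) (A.Ω i)) = fun i => x (A.Ω i) :=
    funext fun i => by rw [mul_ap, U_Ω]
  rwa [Amb.HS, e]

theorem cm_U (hx : A.Deg g x) : Cm A.𝓦 (x * Φ.U g⁻¹) :=
  Amb.deg_one_iff.1 ((hx.mul (Φ.U_deg _)).cast (mul_inv_cancel g))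

include Φ

theorem Pj_Ω (i : ℕ) : A.Pj {1} (A.Ω i) = A.Ω i := by
  rw [Φ.Ω_eq, Pj_ι, Side.cell_one, C.t.P_Ω]

theorem Hom.Ω (hx : Hom A γ x) (i : ℕ) : A.Pj {γ} (x (A.Ω i)) = x (A.Ω i) := by
  have h := ap_eq (hx 1) (A.Ω i)
  rw [mul_one, mul_ap, mul_ap, Pj_Ω Φ] at h
  exact h.symm

theorem ext_cell (e : ∀ δ, T * A.Pj {δ} = T' * A.Pj {δ}) : T = T' :=
  (sl Φ).ext fun i ξ => by
    have := C.t.cnt
    have h := (Φ.ι i).hasSum (C.t.hasSum_P C.t.meas_cell C.t.fund ξ)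
    refine (T.hasSum h).unique ?_
    have h2 := T'.hasSum h
    simp only [← Pj_ι, ← mul_ap, ← e] at h2 ⊢
    exact h2

theorem ext_cell' (e : ∀ δ, A.Pj {δ} * T = A.Pj {δ} * T') : T = T' :=
  star_injective (ext_cell Φ fun δ => by rw [← A.Pj_star, ← star_mul, ← star_mul, e])

theorem eq_zero_of_Pj {ξ : 𝒦} (e : ∀ δ, A.Pj {δ} ξ = 0) : ξ = 0 :=
  (sl Φ).ext_vec fun i => by
    have := C.t.cnt
    have h := C.t.hasSum_P C.t.meas_cell C.t.fund (adjoint (Φ.ι i) ξ)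
    simp only [← adj_ι_Pj, e, map_zero] at h
    rw [h.unique hasSum_zero, map_zero]

theorem sqi_Pj (γ : C.t.Γ) : SqI Measure.count (fun δ : C.t.Γ => A.Pj {γ * δ}) 1 :=
  have := C.t.cnt
  have := C.t.disc
  ⟨fun ξ => StronglyMeasurable.of_discrete.aestronglyMeasurable, zero_le_one, fun ξ => by
    rw [lintegral_count, (sl Φ).enorm_sq ξ]
    simp only [(sl Φ).enorm_sq (A.Pj _ ξ), adj_ι_Pj]
    rw [ENNReal.tsum_comm]
    simp only [← C.t.enorm_tsum_P (fun δ => C.t.meas_cell _) (C.t.cell_part γ)]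
    simp⟩

theorem sqi_glue (γ : C.t.Γ) {T : C.t.Γ → 𝒦 →L[ℂ] 𝒦} {c : ℝ} (hc : ∀ δ, ‖T δ‖ ≤ c) :
    SqI Measure.count (fun δ : C.t.Γ => A.Pj {γ * δ} * T δ * A.Pj {δ}) (c * 1) :=
  have := C.t.cnt
  have := C.t.disc
  (sqi_Pj Φ 1).mono (fun ξ => StronglyMeasurable.of_discrete.aestronglyMeasurable)
    ((norm_nonneg _).trans (hc 1)) fun δ ξ => by
      rw [one_mul]
      exact ((A.Pj _).le_of_opNorm_le (norm_Pj _) _).trans
        ((one_mul _).trans_le ((T δ).le_of_opNorm_le (hc δ) _))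

theorem glue_cell (γ δ : C.t.Γ) {T : C.t.Γ → 𝒦 →L[ℂ] 𝒦} {c : ℝ} (hc : ∀ δ, ‖T δ‖ ≤ c) :
    glue A (fun δ => γ * δ) T * A.Pj {δ} = A.Pj {γ * δ} * T δ * A.Pj {δ} :=
  ContinuousLinearMap.ext fun η => ext_inner_left ℂ fun ξ => by
    have := C.t.cnt
    have := C.t.disc
    rw [mul_ap, glue, (sqi_Pj Φ γ).inner_gram (sqi_glue Φ γ hc),
      ← setIntegral_eq_integral_of_forall_compl_eq_zero
      (s := {δ}) fun ε hε => by rw [← mul_ap, mul_assoc, Pj_ne hε, mul_zero]; simp,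
      integral_singleton, Measure.real, Measure.count_singleton, ENNReal.toReal_one, one_smul,
      ← adjoint_inner_right, adj_Pj, ← mul_ap, ← mul_ap, ← mul_assoc, ← mul_assoc,
      Pj_sq, mul_assoc, Pj_sq]

theorem norm_fc (γ : C.t.Γ) (T : 𝒦 →L[ℂ] 𝒦) : ‖fc A γ T‖ ≤ ‖T‖ := by
  simpa [fc, glue] using (sqi_Pj Φ γ).norm_gram (sqi_glue Φ γ (T := fun _ => T) fun _ => le_rfl)

theorem fc_cell (γ δ : C.t.Γ) (T : 𝒦 →L[ℂ] 𝒦) :
    fc A γ T * A.Pj {δ} = A.Pj {γ * δ} * T * A.Pj {δ} := glue_cell Φ γ δ fun _ => le_rfl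

theorem Mf_cell {f : C.t.Γ → ℝ} (hf : P092WN.Bd f) (δ : C.t.Γ) :
    Mf A f * A.Pj {δ} = (f δ : ℂ) • A.Pj {δ} := by
  obtain ⟨c, hc⟩ := hf
  have e : (id : C.t.Γ → C.t.Γ) = fun δ => 1 * δ := funext fun δ => (one_mul δ).symm
  rw [Mf, e, glue_cell Φ 1 δ (c := c) fun δ => by
    rw [norm_smul, Complex.norm_real]
    exact (mul_le_of_le_one_right (norm_nonneg _) Amb.norm_one_le).trans (hc δ),
    one_mul, mul_smul_comm, mul_one, smul_mul_assoc, Pj_sq]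

theorem hom_fc (γ : C.t.Γ) (T : 𝒦 →L[ℂ] 𝒦) : Hom A γ (fc A γ T) := fun δ => ext_cell Φ fun ε => by
  rw [mul_assoc (A.Pj _), fc_cell Φ, fc_cell Φ, ← mul_assoc, ← mul_assoc, mul_assoc]
  by_cases e : δ = ε
  · rw [e, Pj_sq, Pj_sq]
  · rw [Pj_ne e, Pj_ne fun h => e (mul_left_cancel h), mul_zero, zero_mul, zero_mul]

theorem fc_Ω (γ : C.t.Γ) (T : 𝒦 →L[ℂ] 𝒦) (i : ℕ) : fc A γ T (A.Ω i) = A.Pj {γ} (T (A.Ω i)) := by
  have h := ap_eq (fc_cell Φ γ 1 T) (A.Ω i)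
  rwa [mul_one, mul_ap, mul_ap, mul_ap, Pj_Ω Φ] at h

theorem cm_fc (γ : C.t.Γ) (hT : Cm A.𝓦 T) : Cm A.𝓦 (fc A γ T) := (Φ.cm_iff _).2 fun i j => by
  have e : adjoint (Φ.ι i) ∘L fc A γ T ∘L Φ.ι j = C.t.fc γ (adjoint (Φ.ι i) ∘L T ∘L Φ.ι j) :=
    C.t.ext_cell fun δ => ContinuousLinearMap.ext fun ξ => by
      rw [C.t.fc_cell]
      simp only [mul_ap, comp_apply, ← Pj_ι, ← adj_ι_Pj]
      exact congrArg _ (ap_eq (fc_cell Φ γ δ T) _)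
  rw [e]
  exact C.t.M_fc ((Φ.cm_iff _).1 hT i j)

theorem deg_fc (γ : C.t.Γ) (hT : A.Deg g T) : A.Deg g (fc A γ T) := by
  have e : fc A γ T * A.SH g⁻¹ = fc A γ (T * A.SH g⁻¹) := ext_cell Φ fun δ => by
    rw [mul_assoc, A.Pj_SH, ← mul_assoc, fc_cell Φ, fc_cell Φ, mul_assoc, ← A.Pj_SH]
    simp only [mul_assoc]
  rw [Amb.Deg, e]
  exact cm_fc Φ γ hT

theorem hs_fc (γ : C.t.Γ) (hT : A.HS T) : A.HS (fc A γ T) := by
  rw [Amb.HS, funext (fc_Ω Φ γ T)]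
  exact hT.mul (A.Pj {γ})

theorem fc_mem (γ : C.t.Γ) (hd : d ∈ D A) : fc A γ d ∈ D A := ⟨cm_fc Φ γ hd.1, hs_fc Φ γ hd.2⟩

/-- a banded operator is the sum of finitely many components -/
theorem sum_fc {J : ℝ} (hT : A.Band J T) {F : Finset C.t.Γ} (hF : ∀ s, A.len s ≤ J → s ∈ F) :
    ∑ s ∈ F, fc A s T = T := ext_cell Φ fun δ => ext_cell' Φ fun γ => by
  classical
  rw [Finset.sum_mul, Finset.mul_sum, Finset.sum_eq_single (γ * δ⁻¹) (fun s _ hs => by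
    rw [fc_cell Φ, ← mul_assoc, ← mul_assoc, Pj_ne fun h => hs (by rw [h, mul_inv_cancel_right]),
      zero_mul, zero_mul]) fun hs => ?_]
  · rw [fc_cell Φ, inv_mul_cancel_right, ← mul_assoc, ← mul_assoc, Pj_sq, mul_assoc]
  · rw [fc_cell Φ, hT _ _ fun a ha b hb => ?_, mul_zero]
    rw [ha, hb, mul_inv_cancel_right]
    exact not_le.1 fun h => hs (hF _ h)

theorem Mf_vv {f : C.t.Γ → ℝ} (hf : P092WN.Bd f) (hd : d ∈ D A) (h : Hom A γ d) :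
    lm A (Mf A f) (vv A d) = (f γ : ℂ) • vv A d := by
  rw [lm_vv _ hd, ← vv_smul hd.2]
  refine vv_congr fun i => ?_
  rw [mul_ap, ← h.Ω Φ, ← mul_ap, Mf_cell Φ hf, smul_apply, smul_apply, h.Ω Φ]

/-- the homogeneous vectors are total -/
theorem ext_hom {a b : HH A →L[ℂ] HH A}
    (e : ∀ γ, ∀ d ∈ D A, Hom A γ d → a (vv A d) = b (vv A d)) : a = b := by
  have h1 : adjoint (a - b) = 0 := ContinuousLinearMap.ext fun η => by
    set ζ := adjoint (a - b) η with hζ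
    have h2 : ∀ γ, ⟪(ζ : l2 𝒦), diag (A.Pj {γ}) ζ⟫_ℂ = 0 := fun γ =>
      bim.fext (f := fun ξ : HH A => ⟪(ζ : l2 𝒦), diag (A.Pj {γ}) ξ⟫_ℂ) (g := fun _ => 0)
        (by fun_prop) continuous_const (fun d hd => by
          have h3 : diag (A.Pj {γ}) (vv A d : l2 𝒦) = vv A (fc A γ d) := by
            rw [coe_vv hd, coe_vv (fc_mem Φ γ hd), diag_vec hd.2]
            exact vec_congr fun i => (fc_Ω Φ γ d i).symm
          rw [h3, ← Submodule.coe_inner, hζ, adjoint_inner_left, sub_apply,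
            e γ _ (fc_mem Φ γ hd) (hom_fc Φ γ d), sub_self, inner_zero_right]) ζ
    refine Subtype.ext (lp.ext (funext fun i => eq_zero_of_Pj Φ fun γ => ?_))
    have h4 : diag (A.Pj {γ}) (ζ : l2 𝒦) = 0 := inner_self_eq_zero.1 (by
      rw [← h2 γ, lp.inner_eq_tsum, lp.inner_eq_tsum]
      refine tsum_congr fun j => ?_
      rw [diag_ap, ← adjoint_inner_right, adj_Pj, ← mul_ap, Pj_sq])
    exact (diag_ap _ _ _).symm.trans (by rw [h4]; rfl)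
  rw [← sub_eq_zero, ← adjoint_adjoint (a - b), h1, map_zero]

end Vale.Agent.P092TL
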